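import Mathlib

/-!
P097, disc case, algebra half: extraction of the coefficients `ξ^0`, `ξ^2` of the two Laurent
polynomials `ξ^n R(z ξ, A ξ + B/ξ)` and `ξ^n R(z/ξ, A/ξ + B ξ)`.
-/

set_option linter.all false

namespace Vale.Agent.P097.H541

open Polynomial

section extract

variable {R : Type*} [CommRing R]

/-- the coefficients 0, 1, 2 of `(c + e X^2)^j` -/
theorem coeff_jet (c e : R) (j : ℕ) :
    ((C c + C e * X ^ 2 : R[X]) ^ j).coeff 0 = c ^ j ∧
    ((C c + C e * X ^ 2 : R[X]) ^ j).coeff 1 = 0 ∧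
    ((C c + C e * X ^ 2 : R[X]) ^ j).coeff 2 = (j : R) * c ^ (j - 1) * e := by
  have h0 : (C c + C e * X ^ 2 : R[X]).coeff 0 = c := by simp
  have h1 : (C c + C e * X ^ 2 : R[X]).coeff 1 = 0 := by simp [coeff_X_pow, coeff_C]
  have h2 : (C c + C e * X ^ 2 : R[X]).coeff 2 = e := by simp [coeff_X_pow, coeff_C]
  induction j with
  | zero => simp [coeff_one]
  | succ j ih =>
    obtain ⟨i0, i1, i2⟩ := ih
    refine ⟨?_, ?_, ?_⟩
    · rw [pow_succ, mul_coeff_zero, i0, h0, pow_succ]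
    · rw [pow_succ, mul_coeff_one, i0, i1, h1]; ring
    · rw [pow_succ, coeff_mul, Finset.Nat.sum_antidiagonal_eq_sum_range_succ_mk]
      simp only [Finset.sum_range_succ, Finset.range_zero, Finset.sum_empty, zero_add]
      rw [i0, i1, i2, h2, h1, h0]
      cases j with
      | zero => simp
      | succ k =>
        simp only [Nat.succ_sub_succ_eq_sub, Nat.sub_zero]
        push_cast
        ring

/-- `Σ_j r_{m-j,j} z^{m-j} (A + B X²)^j` -/
noncomputable def Hh (κ : ℂ →+* R) (F : ℂ[X][X]) (z A B : R) (m : ℕ) : R[X] :=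
  ∑ j ∈ Finset.range (m + 1),
    C (κ ((F.coeff j).coeff (m - j)) * z ^ (m - j)) * (C A + C B * X ^ 2) ^ j

/-- `Σ_j r_{m-j,j} z^{m-j} X^{2(m-j)} (B + A X²)^j` -/
noncomputable def Hc (κ : ℂ →+* R) (F : ℂ[X][X]) (z A B : R) (m : ℕ) : R[X] :=
  ∑ j ∈ Finset.range (m + 1),
    C (κ ((F.coeff j).coeff (m - j)) * z ^ (m - j)) *
      (X ^ (2 * (m - j)) * (C B + C A * X ^ 2) ^ j)

theorem Hh_coeff (κ : ℂ →+* R) (F : ℂ[X][X]) (z A B : R) (m : ℕ) :
    (Hh κ F z A B m).coeff 0 =
      ∑ j ∈ Finset.range (m + 1), κ ((F.coeff j).coeff (m - j)) * z ^ (m - j) * A ^ j ∧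
    (Hh κ F z A B m).coeff 1 = 0 ∧
    (Hh κ F z A B m).coeff 2 =
      ∑ j ∈ Finset.range (m + 1),
        κ ((F.coeff j).coeff (m - j)) * z ^ (m - j) * ((j : R) * A ^ (j - 1) * B) := by
  refine ⟨?_, ?_, ?_⟩
  · rw [Hh, finset_sum_coeff]
    refine Finset.sum_congr rfl fun j _ => ?_
    rw [coeff_C_mul, (coeff_jet A B j).1]
  · rw [Hh, finset_sum_coeff]
    refine Finset.sum_eq_zero fun j _ => ?_
    rw [coeff_C_mul, (coeff_jet A B j).2.1, mul_zero]
  · rw [Hh, finset_sum_coeff]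
    refine Finset.sum_congr rfl fun j _ => ?_
    rw [coeff_C_mul, (coeff_jet A B j).2.2]

theorem Hc_coeff0 (κ : ℂ →+* R) (F : ℂ[X][X]) (z A B : R) (m : ℕ) :
    (Hc κ F z A B m).coeff 0 = κ ((F.coeff m).coeff 0) * B ^ m := by
  rw [Hc, finset_sum_coeff, Finset.sum_range_succ, Finset.sum_eq_zero]
  · rw [coeff_C_mul]
    simp only [Nat.sub_self, mul_zero, pow_zero, one_mul, mul_one]
    rw [(coeff_jet B A m).1, zero_add]
  · intro j hj
    have hj' : j < m := Finset.mem_range.mp hj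
    rw [coeff_C_mul, coeff_X_pow_mul', if_neg (by omega), mul_zero]

theorem Hc_coeff1 (κ : ℂ →+* R) (F : ℂ[X][X]) (z A B : R) (m : ℕ) :
    (Hc κ F z A B m).coeff 1 = 0 := by
  rw [Hc, finset_sum_coeff]
  refine Finset.sum_eq_zero fun j _ => ?_
  rw [coeff_C_mul, coeff_X_pow_mul']
  split_ifs with h
  · have h0 : 2 * (m - j) = 0 := by omega
    rw [h0, Nat.sub_zero, (coeff_jet B A j).2.1, mul_zero]
  · rw [mul_zero]

theorem Hc_coeff2 (κ : ℂ →+* R) (F : ℂ[X][X]) (z A B : R) (m : ℕ) :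
    (Hc κ F z A B (m + 1)).coeff 2 =
      κ ((F.coeff (m + 1)).coeff 0) * (((m : R) + 1) * B ^ m * A) +
      κ ((F.coeff m).coeff 1) * z * B ^ m := by
  rw [Hc, finset_sum_coeff, Finset.sum_range_succ, Finset.sum_range_succ, Finset.sum_eq_zero]
  · rw [coeff_C_mul, coeff_C_mul]
    have e1 : m + 1 - m = 1 := by omega
    rw [e1]
    simp only [Nat.sub_self, mul_zero, pow_zero, one_mul, mul_one]
    rw [(coeff_jet B A (m + 1)).2.2, coeff_X_pow_mul', if_pos (le_refl 2)]
    rw [Nat.sub_self, (coeff_jet B A m).1]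
    simp only [Nat.add_sub_cancel]
    push_cast
    ring
  · intro j hj
    have hj' : j < m := Finset.mem_range.mp hj
    rw [coeff_C_mul, coeff_X_pow_mul', if_neg (by omega), mul_zero]

/-- weighted sums `Σ_{m ≤ n} X^{n-m} H_m` -/
noncomputable def wsum (n : ℕ) (H : ℕ → R[X]) : R[X] :=
  ∑ m ∈ Finset.range (n + 1), X ^ (n - m) * H m

theorem wsum_coeff0 (n : ℕ) (H : ℕ → R[X]) : (wsum n H).coeff 0 = (H n).coeff 0 := by
  rw [wsum, finset_sum_coeff, Finset.sum_range_succ, Finset.sum_eq_zero]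
  · simp
  · intro j hj
    have hj' : j < n := Finset.mem_range.mp hj
    rw [coeff_X_pow_mul', if_neg (by omega)]

theorem wsum_coeff2 (k : ℕ) (H : ℕ → R[X]) :
    (wsum (k + 2) H).coeff 2 = (H (k + 2)).coeff 2 + (H (k + 1)).coeff 1 + (H k).coeff 0 := by
  rw [wsum, finset_sum_coeff, Finset.sum_range_succ, Finset.sum_range_succ,
    Finset.sum_range_succ, Finset.sum_eq_zero]
  · have e1 : k + 2 - k = 2 := by omega
    have e2 : k + 2 - (k + 1) = 1 := by omega
    have e3 : k + 2 - (k + 2) = 0 := by omega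
    rw [e1, e2, e3, coeff_X_pow_mul', if_pos (le_refl 2), coeff_X_pow_mul', if_pos (by omega),
      coeff_X_pow_mul', if_pos (by omega)]
    simp only [Nat.sub_self, Nat.sub_zero]
    have e4 : 2 - 1 = 1 := rfl
    rw [e4]
    ring
  · intro j hj
    have hj' : j < k := Finset.mem_range.mp hj
    rw [coeff_X_pow_mul', if_neg (by omega)]

/-- evaluation of a polynomial in `(N, p)` -/
noncomputable def evNP (κ : ℂ →+* R) (F : ℂ[X][X]) (N p : R) : R :=
  eval₂ (eval₂RingHom κ N) p F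

theorem evNP_eq (κ : ℂ →+* R) (F : ℂ[X][X]) (n : ℕ)
    (hF : ∀ i j, n < i + j → (F.coeff j).coeff i = 0) (N p : R) :
    evNP κ F N p = ∑ m ∈ Finset.range (n + 1), ∑ j ∈ Finset.range (m + 1),
      κ ((F.coeff j).coeff (m - j)) * N ^ (m - j) * p ^ j := by
  have h1 : ∀ j, n < j → F.coeff j = 0 := by
    intro j hj
    ext i
    rw [hF i j (by omega), coeff_zero]
  have hd : F.natDegree < n + 1 := by
    by_contra hcon
    have h2 : n < F.natDegree := by omega
    have h3 := h1 _ h2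
    have h4 : F = 0 := by
      rw [← leadingCoeff_eq_zero]; exact h3
    rw [h4] at h2
    simp at h2
  have h5 : ∀ j, j < n + 1 → (F.coeff j).natDegree < n + 1 - j := by
    intro j hj
    by_contra hcon
    have h2 : n + 1 - j ≤ (F.coeff j).natDegree := by omega
    have h3 := hF (F.coeff j).natDegree j (by omega)
    have h4 : F.coeff j = 0 := by
      rw [← leadingCoeff_eq_zero]; exact h3
    rw [h4] at h2
    simp at h2
    omega
  have key := Finset.sum_range_diag_flip (n + 1)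
    (fun j i => κ ((F.coeff j).coeff i) * N ^ i * p ^ j)
  rw [evNP, eval₂_eq_sum_range' _ hd]
  refine Eq.trans ?_ key.symm
  refine Finset.sum_congr rfl fun j hj => ?_
  rw [coe_eval₂RingHom, eval₂_eq_sum_range' _ (h5 j (Finset.mem_range.mp hj)), Finset.sum_mul]

/-- `x^n R(z/x, A/x + B x)` is the value at `x` of `wsum n (Hh ..)` -/
theorem hat_eval (κ : ℂ →+* R) (F : ℂ[X][X]) (n : ℕ)
    (hF : ∀ i j, n < i + j → (F.coeff j).coeff i = 0) (z A B x y : R) (hxy : x * y = 1) :
    x ^ n * evNP κ F (z * y) (A * y + B * x) = (wsum n (Hh κ F z A B)).eval x := by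
  rw [evNP_eq κ F n hF, wsum, eval_finset_sum, Finset.mul_sum]
  refine Finset.sum_congr rfl fun m hm => ?_
  have hm' : m ≤ n := by have := Finset.mem_range.mp hm; omega
  rw [eval_mul, eval_pow, eval_X, Hh, eval_finset_sum, Finset.mul_sum, Finset.mul_sum]
  refine Finset.sum_congr rfl fun j hj => ?_
  have hj' : j ≤ m := by have := Finset.mem_range.mp hj; omega
  simp only [eval_mul, eval_C, eval_pow, eval_add, eval_X]
  have e1 : A + B * x ^ 2 = x * (A * y + B * x) := by
    linear_combination (-A) * hxy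
  rw [e1, mul_pow, mul_pow]
  have e2 : x ^ n = x ^ (n - m) * x ^ (m - j) * x ^ j := by
    rw [← pow_add, ← pow_add]; congr 1; omega
  have e3 : x ^ (m - j) * y ^ (m - j) = 1 := by rw [← mul_pow, hxy, one_pow]
  rw [e2]
  linear_combination (x ^ (n - m) * x ^ j * κ ((F.coeff j).coeff (m - j)) * z ^ (m - j) *
    (A * y + B * x) ^ j) * e3

/-- `x^n R(z x, A x + B/x)` is the value at `x` of `wsum n (Hc ..)` -/
theorem chk_eval (κ : ℂ →+* R) (F : ℂ[X][X]) (n : ℕ)
    (hF : ∀ i j, n < i + j → (F.coeff j).coeff i = 0) (z A B x y : R) (hxy : x * y = 1) :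
    x ^ n * evNP κ F (z * x) (A * x + B * y) = (wsum n (Hc κ F z A B)).eval x := by
  rw [evNP_eq κ F n hF, wsum, eval_finset_sum, Finset.mul_sum]
  refine Finset.sum_congr rfl fun m hm => ?_
  have hm' : m ≤ n := by have := Finset.mem_range.mp hm; omega
  rw [eval_mul, eval_pow, eval_X, Hc, eval_finset_sum, Finset.mul_sum, Finset.mul_sum]
  refine Finset.sum_congr rfl fun j hj => ?_
  have hj' : j ≤ m := by have := Finset.mem_range.mp hj; omega
  simp only [eval_mul, eval_C, eval_pow, eval_add, eval_X]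
  have e1 : B + A * x ^ 2 = x * (A * x + B * y) := by
    linear_combination (-B) * hxy
  rw [e1, mul_pow, mul_pow, two_mul, pow_add]
  have e2 : x ^ n = x ^ (n - m) * x ^ (m - j) * x ^ j := by
    rw [← pow_add, ← pow_add]; congr 1; omega
  rw [e2]
  ring

end extract

end Vale.Agent.P097.H541
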