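import Mathlib
import Vale.Agent.P097.H541.Extract

/-!
P097, disc case, algebra half: from identities in `L⟦X⟧` at a transcendental `ξ` to coefficient
identities in `ℂ⟦X⟧`.
-/

set_option linter.all false

namespace Vale.Agent.P097.H541

open Polynomial

section map

variable {R S : Type*} [CommRing R] [CommRing S]

theorem Hh_map (φ : R →+* S) (κ : ℂ →+* R) (F : ℂ[X][X]) (z A B : R) (m : ℕ) :
    (Hh κ F z A B m).map φ = Hh (φ.comp κ) F (φ z) (φ A) (φ B) m := by
  rw [Hh, Hh, Polynomial.map_sum]
  refine Finset.sum_congr rfl fun j _ => ?_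
  simp

theorem Hc_map (φ : R →+* S) (κ : ℂ →+* R) (F : ℂ[X][X]) (z A B : R) (m : ℕ) :
    (Hc κ F z A B m).map φ = Hc (φ.comp κ) F (φ z) (φ A) (φ B) m := by
  rw [Hc, Hc, Polynomial.map_sum]
  refine Finset.sum_congr rfl fun j _ => ?_
  simp

theorem wsum_map (φ : R →+* S) (n : ℕ) (H : ℕ → R[X]) (G : ℕ → S[X])
    (h : ∀ m, (H m).map φ = G m) : (wsum n H).map φ = wsum n G := by
  rw [wsum, wsum, Polynomial.map_sum]
  refine Finset.sum_congr rfl fun j _ => ?_
  simp [h j]

end map

/-- a polynomial over `ℂ⟦X⟧` which vanishes in `L⟦X⟧` at a transcendental constant is zero -/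
theorem poly_eq_zero {L : Type*} [Field L] [Algebra ℂ L] (ξ : L) (hξ : Transcendental ℂ ξ)
    (f : (PowerSeries ℂ)[X])
    (h : (f.map (PowerSeries.map (algebraMap ℂ L))).eval (PowerSeries.C ξ) = 0) : f = 0 := by
  ext k n
  rw [coeff_zero]
  have key : ∀ n, (∑ i ∈ Finset.range (f.natDegree + 1),
      Polynomial.C (PowerSeries.coeff n (f.coeff i)) * (X : ℂ[X]) ^ i) = 0 := by
    intro n
    rw [transcendental_iff_injective] at hξ
    apply hξ
    rw [map_zero, map_sum]
    have h2 := congrArg (PowerSeries.coeff n) h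
    rw [map_zero, Polynomial.eval_map, eval₂_eq_sum_range, map_sum] at h2
    rw [← h2]
    refine Finset.sum_congr rfl fun i _ => ?_
    rw [← map_pow, PowerSeries.coeff_mul_C, PowerSeries.coeff_map]
    simp
  have h3 := congrArg (fun g : ℂ[X] => g.coeff k) (key n)
  simp only [finset_sum_coeff, coeff_C_mul, coeff_X_pow, coeff_zero] at h3
  by_cases hk : k ≤ f.natDegree
  · rw [Finset.sum_eq_single k] at h3
    · simpa using h3
    · intro b _ hb
      rw [if_neg (fun e => hb e.symm), mul_zero]
    · intro hk'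
      exact absurd (Finset.mem_range.mpr (by omega)) hk'
  · rw [coeff_eq_zero_of_natDegree_lt (by omega), map_zero]

end Vale.Agent.P097.H541
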