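import Mathlib
import Vale.Agent.P097.H541.Inj
import Vale.Agent.P097.H779.Disc.LD

/-!
P097, disc case, algebra half: (L3), (L4), (L5) of helper123's proof in the field `K = ℂ((z))`.
-/

set_option linter.all false

namespace Vale.Agent.P097.H541

open Polynomial

/-- the homogeneous part of degree `m` of `F(N, p)` as a polynomial in the slope `p / N` -/
noncomputable def hom (F : ℂ[X][X]) (m : ℕ) : ℂ[X] :=
  ∑ j ∈ Finset.range (m + 1), C ((F.coeff j).coeff (m - j)) * X ^ j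

theorem hom_coeff (F : ℂ[X][X]) (m j : ℕ) (hj : j ≤ m) :
    (hom F m).coeff j = (F.coeff j).coeff (m - j) := by
  rw [hom, finset_sum_coeff, Finset.sum_eq_single j]
  · simp
  · intro b _ hb
    rw [coeff_C_mul, coeff_X_pow, if_neg (fun e => hb e.symm), mul_zero]
  · intro h
    exact absurd (Finset.mem_range.mpr (by omega)) h

theorem hom_natDegree_lt (F : ℂ[X][X]) (m : ℕ) : (hom F m).natDegree < m + 1 := by
  have h : (hom F m).natDegree ≤ m := by
    rw [hom]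
    refine natDegree_sum_le_of_forall_le _ _ fun j hj => ?_
    refine (natDegree_C_mul_X_pow_le _ _).trans ?_
    have := Finset.mem_range.mp hj
    omega
  omega

section ring

variable {F0 : Type*} [CommRing F0]

/-- (C1) as an identity of polynomials in `ξ` -/
def CC1 (κ : ℂ →+* F0) (Q P : ℂ[X][X]) (d : ℕ) (z A B : F0) : Prop :=
  (C A - C B * X ^ 2) * wsum (d - 1) (Hh κ Q z A B) - wsum d (Hh κ P z A B) =
    - ((C A * X ^ 2 - C B) * wsum (d - 1) (Hc κ Q z A B) - wsum d (Hc κ P z A B))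

/-- (C2) as an identity of polynomials in `ξ` -/
def CC2 (κ : ℂ →+* F0) (Q P : ℂ[X][X]) (d : ℕ) (z A B ρ : F0) : Prop :=
  C ρ * (X ^ 2 - 1) * (wsum (d - 1) (Hc κ Q z A B) + wsum (d - 1) (Hh κ Q z A B)) =
    4 * ((C A * X ^ 2 - C B) * wsum (d - 1) (Hc κ Q z A B) - wsum d (Hc κ P z A B))

variable {S : Type*} [CommRing S]

theorem CC1.map {κ : ℂ →+* F0} {Q P : ℂ[X][X]} {d : ℕ} {z A B : F0} (h : CC1 κ Q P d z A B)
    (ψ : F0 →+* S) : CC1 (ψ.comp κ) Q P d (ψ z) (ψ A) (ψ B) := by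
  have e := congrArg (Polynomial.map ψ) h
  simp only [Polynomial.map_sub, Polynomial.map_mul, Polynomial.map_neg, Polynomial.map_pow,
    Polynomial.map_C, Polynomial.map_X] at e
  rw [wsum_map ψ _ _ _ (fun m => Hh_map ψ κ Q z A B m),
    wsum_map ψ _ _ _ (fun m => Hh_map ψ κ P z A B m),
    wsum_map ψ _ _ _ (fun m => Hc_map ψ κ Q z A B m),
    wsum_map ψ _ _ _ (fun m => Hc_map ψ κ P z A B m)] at e
  exact e

theorem CC2.map {κ : ℂ →+* F0} {Q P : ℂ[X][X]} {d : ℕ} {z A B ρ : F0}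
    (h : CC2 κ Q P d z A B ρ) (ψ : F0 →+* S) :
    CC2 (ψ.comp κ) Q P d (ψ z) (ψ A) (ψ B) (ψ ρ) := by
  have e := congrArg (Polynomial.map ψ) h
  simp only [Polynomial.map_sub, Polynomial.map_mul, Polynomial.map_neg, Polynomial.map_pow,
    Polynomial.map_C, Polynomial.map_X, Polynomial.map_add, Polynomial.map_one,
    Polynomial.map_ofNat] at e
  rw [wsum_map ψ _ _ _ (fun m => Hh_map ψ κ Q z A B m),
    wsum_map ψ _ _ _ (fun m => Hc_map ψ κ Q z A B m),
    wsum_map ψ _ _ _ (fun m => Hc_map ψ κ P z A B m)] at e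
  exact e

end ring

section field

variable {F0 : Type*} [Field F0]

theorem sum_hom (κ : ℂ →+* F0) (F : ℂ[X][X]) (m : ℕ) (z V : F0) :
    ∑ j ∈ Finset.range (m + 1), κ ((F.coeff j).coeff (m - j)) * z ^ (m - j) * (z * V) ^ j =
      z ^ m * (hom F m).eval₂ κ V := by
  rw [hom, eval₂_finset_sum, Finset.mul_sum]
  refine Finset.sum_congr rfl fun j hj => ?_
  have hj' : j ≤ m := by have := Finset.mem_range.mp hj; omega
  simp only [eval₂_mul, eval₂_C, eval₂_pow, eval₂_X]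
  have e : z ^ m = z ^ (m - j) * z ^ j := by rw [← pow_add]; congr 1; omega
  rw [e, mul_pow]
  ring

theorem sum_hom' (κ : ℂ →+* F0) (F : ℂ[X][X]) (m : ℕ) (z V y : F0) :
    ∑ j ∈ Finset.range (m + 1), κ ((F.coeff j).coeff (m - j)) * z ^ (m - j) *
        ((j : F0) * (z * V) ^ (j - 1) * (z * y)) =
      z ^ m * y * (derivative (hom F m)).eval₂ κ V := by
  rw [hom, derivative_sum, eval₂_finset_sum, Finset.mul_sum]
  refine Finset.sum_congr rfl fun j hj => ?_
  have hj' : j ≤ m := by have := Finset.mem_range.mp hj; omega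
  rw [derivative_C_mul_X_pow, eval₂_mul, eval₂_C, eval₂_pow, eval₂_X, map_mul, map_natCast]
  cases j with
  | zero => simp
  | succ k =>
    have e : z ^ m = z ^ (m - (k + 1)) * z ^ k * z := by
      rw [mul_assoc, ← pow_succ, ← pow_add]; congr 1; omega
    rw [e, mul_pow]
    simp only [Nat.add_sub_cancel]
    push_cast
    ring

theorem coeff_mulA (A B : F0) (f : F0[X]) :
    ((C A - C B * X ^ 2) * f).coeff 0 = A * f.coeff 0 ∧
    ((C A - C B * X ^ 2) * f).coeff 2 = A * f.coeff 2 - B * f.coeff 0 := by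
  have e : (C A - C B * X ^ 2) * f = C A * f - C B * (X ^ 2 * f) := by ring
  rw [e]
  constructor
  · rw [coeff_sub, coeff_C_mul, coeff_C_mul, coeff_X_pow_mul', if_neg (by omega)]; ring
  · rw [coeff_sub, coeff_C_mul, coeff_C_mul, coeff_X_pow_mul', if_pos (le_refl 2)]

theorem coeff_mulB (A B : F0) (f : F0[X]) :
    ((C A * X ^ 2 - C B) * f).coeff 0 = - (B * f.coeff 0) ∧
    ((C A * X ^ 2 - C B) * f).coeff 2 = A * f.coeff 0 - B * f.coeff 2 := by
  have e : (C A * X ^ 2 - C B) * f = C A * (X ^ 2 * f) - C B * f := by ring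
  rw [e]
  constructor
  · rw [coeff_sub, coeff_C_mul, coeff_C_mul, coeff_X_pow_mul', if_neg (by omega)]; ring
  · rw [coeff_sub, coeff_C_mul, coeff_C_mul, coeff_X_pow_mul', if_pos (le_refl 2)]

/-- standing assumptions on `P`, `Q` -/
structure PQ (Q P : ℂ[X][X]) (d : ℕ) : Prop where
  hd : 1 ≤ d
  hQ1 : (Q.coeff (d - 1)).coeff 0 = 1
  hQt : ∀ i j, d - 1 < i + j → (Q.coeff j).coeff i = 0
  hPt : ∀ i j, d < i + j → (P.coeff j).coeff i = 0
  hP0 : ∀ j, (P.coeff j).coeff 0 = 0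

/-- `Φ(V) = V Q_{d-1}(1,V) - P_d(1,V)` -/
noncomputable def Phi (Q P : ℂ[X][X]) (d : ℕ) : ℂ[X] := X * hom Q (d - 1) - hom P d

theorem Phi_monic {Q P : ℂ[X][X]} {d : ℕ} (h : PQ Q P d) :
    (Phi Q P d).Monic ∧ (Phi Q P d).natDegree = d := by
  have hd := h.hd
  have h1 : (X * hom Q (d - 1)).natDegree ≤ d := by
    refine natDegree_mul_le.trans ?_
    have := hom_natDegree_lt Q (d - 1)
    rw [natDegree_X]
    omega
  have h2 : (hom P d).natDegree ≤ d := by
    have := hom_natDegree_lt P d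
    omega
  have h3 : (Phi Q P d).natDegree ≤ d := by
    rw [Phi]
    exact (natDegree_sub_le _ _).trans (max_le h1 h2)
  have h4 : (Phi Q P d).coeff d = 1 := by
    obtain ⟨e, rfl⟩ : ∃ e, d = e + 1 := ⟨d - 1, by omega⟩
    rw [Phi, coeff_sub, coeff_X_mul, hom_coeff Q _ _ (by omega), hom_coeff P _ _ (le_refl _)]
    have e1 : e + 1 - 1 - e = 0 := by omega
    have e2 : e + 1 - (e + 1) = 0 := by omega
    rw [e1, e2, h.hP0 (e + 1), sub_zero]
    have := h.hQ1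
    simpa using this
  refine ⟨monic_of_natDegree_le_of_coeff_eq_one d h3 h4, ?_⟩
  refine le_antisymm h3 (le_natDegree_of_ne_zero ?_)
  rw [h4]; exact one_ne_zero

/-- (L3) -/
theorem L3 {κ : ℂ →+* F0} {Q P : ℂ[X][X]} {d : ℕ} (h : PQ Q P d) {z V y : F0} (hz : z ≠ 0)
    (h1 : CC1 κ Q P d z (z * V) (z * y)) : y ^ d = (Phi Q P d).eval₂ κ V := by
  have hd := h.hd
  have e := congrArg (fun f : F0[X] => f.coeff 0) h1
  simp only [coeff_sub, coeff_neg] at e
  rw [(coeff_mulA _ _ _).1, (coeff_mulB _ _ _).1, wsum_coeff0, wsum_coeff0, wsum_coeff0,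
    wsum_coeff0, (Hh_coeff _ _ _ _ _ _).1, (Hh_coeff _ _ _ _ _ _).1, Hc_coeff0, Hc_coeff0,
    sum_hom, sum_hom, h.hP0, h.hQ1] at e
  rw [Phi, eval₂_sub, eval₂_mul, eval₂_X]
  simp only [map_zero, map_one, zero_mul, one_mul] at e
  have e2 : z ^ d = z ^ (d - 1) * z := by rw [← pow_succ]; congr 1; omega
  have e3 : y ^ d = y ^ (d - 1) * y := by rw [← pow_succ]; congr 1; omega
  have e4 : z ^ d ≠ 0 := pow_ne_zero _ hz
  apply mul_left_cancel₀ e4
  rw [mul_pow] at e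
  rw [e2] at e ⊢
  rw [e3]
  linear_combination (-1 : F0) * e

/-- (L4), before the use of transcendence -/
theorem L4 {κ : ℂ →+* F0} {Q P : ℂ[X][X]} {d : ℕ} (h : PQ Q P d) {z V y DV : F0} (hz : z ≠ 0)
    (h2F : (2 : F0) ≠ 0)
    (h2 : CC2 κ Q P d z (z * V) (z * y) (-2 * z * DV)) :
    DV * (y ^ (d - 1) + (hom Q (d - 1)).eval₂ κ V) = -2 * y ^ d := by
  have hd := h.hd
  have e := congrArg (fun f : F0[X] => f.coeff 0) h2
  simp only [coeff_zero_eq_eval_zero, eval_mul, eval_sub, eval_add, eval_C, eval_pow, eval_X,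
    eval_one, eval_ofNat] at e
  simp only [← coeff_zero_eq_eval_zero] at e
  rw [wsum_coeff0, wsum_coeff0, wsum_coeff0, (Hh_coeff _ _ _ _ _ _).1, Hc_coeff0, Hc_coeff0,
    sum_hom, h.hP0, h.hQ1] at e
  simp only [map_zero, map_one, zero_mul, one_mul] at e
  have e2 : z ^ d = z ^ (d - 1) * z := by rw [← pow_succ]; congr 1; omega
  have e3 : y ^ d = y ^ (d - 1) * y := by rw [← pow_succ]; congr 1; omega
  have e4 : z ^ d ≠ 0 := pow_ne_zero _ hz
  apply mul_left_cancel₀ e4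
  apply mul_left_cancel₀ h2F
  rw [mul_pow] at e
  rw [e2, e3]
  linear_combination e

/-- (L5), before the use of (L4) -/
theorem L5 {κ : ℂ →+* F0} {Q P : ℂ[X][X]} {d : ℕ} (h : PQ Q P d) (hd3 : 3 ≤ d) {z V y : F0}
    (hz : z ≠ 0)
    (h1 : CC1 κ Q P d z (z * V) (z * y)) :
    z ^ 2 * y * (V * (derivative (hom Q (d - 1))).eval₂ κ V - (hom Q (d - 1)).eval₂ κ V
        - (derivative (hom P d)).eval₂ κ V) + (V * (hom Q (d - 3)).eval₂ κ V -
        (hom P (d - 2)).eval₂ κ V) =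
      z ^ 2 * y ^ (d - 1) * (((d : F0) - 2) * V + κ ((Q.coeff (d - 2)).coeff 1)
        + κ ((P.coeff (d - 1)).coeff 1)) + κ ((Q.coeff (d - 3)).coeff 0) * y ^ (d - 2) := by
  obtain ⟨k, rfl⟩ : ∃ k, d = k + 3 := ⟨d - 3, by omega⟩
  have e := congrArg (fun f : F0[X] => f.coeff 2) h1
  simp only [coeff_sub, coeff_neg] at e
  have s1 : k + 3 - 1 = k + 2 := by omega
  have s2 : k + 3 - 2 = k + 1 := by omega
  have s3 : k + 3 - 3 = k := by omega
  have s4 : k + 3 = (k + 1) + 2 := by omega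
  have hQ1 := h.hQ1
  rw [s1] at e hQ1 ⊢
  rw [s2, s3]
  rw [(coeff_mulA _ _ _).2, (coeff_mulB _ _ _).2] at e
  rw [wsum_coeff2, wsum_coeff2, wsum_coeff0, wsum_coeff0] at e
  rw [s4, wsum_coeff2, wsum_coeff2] at e
  have s5 : k + 1 + 2 = (k + 2) + 1 := by omega
  have s6 : k + 2 = (k + 1) + 1 := by omega
  rw [Hc_coeff1, Hc_coeff1, (Hh_coeff _ _ _ _ _ _).2.1, (Hh_coeff _ _ _ _ _ _).2.1,
    (Hh_coeff _ _ _ _ _ _).2.2, (Hh_coeff _ _ _ _ _ _).2.2, (Hh_coeff _ _ _ _ _ _).1,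
    (Hh_coeff _ _ _ _ _ _).1, (Hh_coeff _ _ _ _ _ _).1, sum_hom, sum_hom, sum_hom, sum_hom',
    sum_hom', Hc_coeff0, Hc_coeff0, Hc_coeff0] at e
  rw [s5, Hc_coeff2] at e
  rw [s6, Hc_coeff2] at e
  simp only [← s6] at e
  rw [hQ1, h.hP0, h.hP0] at e
  simp only [map_zero, map_one, zero_mul, one_mul, add_zero, zero_add] at e
  have e4 : z ^ (k + 1) ≠ 0 := pow_ne_zero _ hz
  apply mul_left_cancel₀ e4
  have s7 : k + 2 + 1 = k + 3 := by omega
  rw [s7] at e
  simp only [mul_pow] at e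
  push_cast at e ⊢
  ring_nf at e ⊢
  linear_combination e

end field

end Vale.Agent.P097.H541
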