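import Mathlib
import Vale.Agent.P097.H541.Core
import Vale.Agent.P097.H779.Disc.L67
import Vale.Agent.P097.H779.Disc.Fin
import Vale.Agent.P097.Disc.Defs

/-!
P097, disc case, algebra half: the relations (L3)-(L5) in `K = ℂ((z))` for the formal table
`h = ∑ a n z^n`, and the conclusion.
-/

set_option linter.all false

namespace Vale.Agent.P097.H541

open Vale.Agent.P097.H779.Disc Vale.Agent.P097.Disc

/-- `ℂ⟦z⟧ → ℂ((z))` -/
noncomputable abbrev ofP : PowerSeries ℂ →+* K := HahnSeries.ofPowerSeries ℤ ℂ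

theorem ofP_coeff (f : PowerSeries ℂ) (n : ℤ) :
    (ofP f).coeff n = if n < 0 then 0 else PowerSeries.coeff n.natAbs f := by
  exact PowerSeries.coeff_coe f n

theorem Dz_ofP (f : PowerSeries ℂ) :
    Dz (ofP f) = ofP (PowerSeries.mk fun n => (n : ℂ) * PowerSeries.coeff n f) := by
  ext n
  rw [Dz_coeff, ofP_coeff, ofP_coeff]
  split_ifs with h
  · simp
  · rw [PowerSeries.coeff_mk]
    have h' : ((n.natAbs : ℕ) : ℤ) = n := Int.natAbs_of_nonneg (by omega)
    have h2 : (n : ℂ) = ((n.natAbs : ℕ) : ℂ) := by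
      conv_lhs => rw [← h']
      simp only [Int.cast_natCast]
    rw [h2]

/-- `A = (h + Dh)/2` -/
noncomputable def AP (a : ℕ → ℂ) : PowerSeries ℂ := PowerSeries.mk (Ac a)
/-- `B = (h - Dh)/2` -/
noncomputable def BP (a : ℕ → ℂ) : PowerSeries ℂ := PowerSeries.mk (Bc a)
/-- `ρ = h - D²h` -/
noncomputable def RP (a : ℕ → ℂ) : PowerSeries ℂ := PowerSeries.mk fun n => (1 - (n : ℂ) ^ 2) * a n

noncomputable def zK : K := HahnSeries.single (1 : ℤ) (1 : ℂ)
noncomputable def zi : K := HahnSeries.single (-1 : ℤ) (1 : ℂ)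

theorem zK_zi : zK * zi = 1 := by
  rw [zK, zi, HahnSeries.single_mul_single]
  simp

theorem zK_ne : zK ≠ 0 := left_ne_zero_of_mul_eq_one zK_zi

theorem Dz_zK : Dz zK = zK := by
  ext n
  rw [Dz_coeff, zK, HahnSeries.coeff_single]
  split_ifs with h
  · rw [h]; simp
  · simp

/-- `V = A / z` -/
noncomputable def VK (a : ℕ → ℂ) : K := ofP (AP a) * zi
/-- `y = B / z` -/
noncomputable def yK (a : ℕ → ℂ) : K := ofP (BP a) * zi

theorem zV (a : ℕ → ℂ) : zK * VK a = ofP (AP a) := by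
  rw [VK]; linear_combination (ofP (AP a)) * zK_zi

theorem zy (a : ℕ → ℂ) : zK * yK a = ofP (BP a) := by
  rw [yK]; linear_combination (ofP (BP a)) * zK_zi

theorem hV_add (a : ℕ → ℂ) : zK * (VK a + yK a) = ofP (PowerSeries.mk a) := by
  rw [mul_add, zV, zy, ← map_add]
  congr 1
  ext n
  simp only [AP, BP, map_add, PowerSeries.coeff_mk, Ac, Bc]
  ring

theorem hR (a : ℕ → ℂ) : Dz (VK a) + Dz (yK a) = -(2 * yK a) := by
  have h1 : Dz (zK * (VK a + yK a)) = zK * (VK a - yK a) := by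
    rw [hV_add, Dz_ofP, mul_sub, zV, zy, ← map_sub]
    congr 1
    ext n
    simp only [AP, BP, map_sub, PowerSeries.coeff_mk, Ac, Bc]
    ring
  rw [Dz_mul, Dz_zK, Dz_add] at h1
  apply mul_left_cancel₀ zK_ne
  linear_combination h1

theorem hρ (a : ℕ → ℂ) : ofP (RP a) = -2 * zK * Dz (VK a) := by
  have h1 : Dz (zK * VK a) = ofP (AP a) - ofP (RP a) * HahnSeries.C (1 / 2 : ℂ) := by
    rw [zV, Dz_ofP]
    have e : (HahnSeries.C (1 / 2 : ℂ) : K) = ofP (PowerSeries.C (1 / 2 : ℂ)) := by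
      rw [HahnSeries.ofPowerSeries_C]
    rw [e, ← map_mul, ← map_sub]
    congr 1
    ext n
    simp only [AP, RP, map_sub, PowerSeries.coeff_mk, Ac, PowerSeries.coeff_mul_C]
    ring
  rw [Dz_mul, Dz_zK, ← zV] at h1
  have e2 : (HahnSeries.C (1 / 2 : ℂ) : K) * 2 = 1 := by
    have : (2 : K) = HahnSeries.C (2 : ℂ) := (map_ofNat HahnSeries.C 2).symm
    rw [this, ← map_mul]
    norm_num
  linear_combination (2 : K) * h1 - (ofP (RP a)) * e2

theorem ofP_order {f : PowerSeries ℂ} (hf : PowerSeries.coeff 0 f ≠ 0) :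
    (ofP f).order = 0 ∧ (ofP f).leadingCoeff = PowerSeries.coeff 0 f := by
  have h0 : (ofP f).coeff 0 = PowerSeries.coeff 0 f := by
    rw [ofP_coeff]; simp
  have hne : ofP f ≠ 0 := by
    intro h
    rw [h] at h0
    exact hf (by rw [← h0]; simp)
  have ho : (ofP f).order = 0 := by
    apply le_antisymm
    · exact HahnSeries.order_le_of_coeff_ne_zero (by rw [h0]; exact hf)
    · by_contra hcon
      push Not at hcon
      have h1 := HahnSeries.coeff_order_eq_zero.not.mpr hne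
      apply h1
      rw [ofP_coeff, if_pos hcon]
  refine ⟨ho, ?_⟩
  rw [HahnSeries.leadingCoeff_eq, ho, h0]

theorem zi_order : zi.order = -1 ∧ zi.leadingCoeff = 1 := by
  constructor
  · rw [zi, HahnSeries.order_single one_ne_zero]
  · rw [zi, HahnSeries.leadingCoeff_of_single]

theorem VK_order {a : ℕ → ℂ} (h0 : a 0 = 1) :
    (VK a).order = -1 ∧ (VK a).leadingCoeff = 1 / 2 := by
  have hc : PowerSeries.coeff 0 (AP a) = 1 / 2 := by simp [AP, Ac, h0]
  obtain ⟨h1, h2⟩ := ofP_order (f := AP a) (by rw [hc]; norm_num)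
  have hne : ofP (AP a) ≠ 0 := by
    intro h
    rw [h, HahnSeries.leadingCoeff_zero] at h2
    rw [← h2] at hc; norm_num at hc
  have hz : zi ≠ 0 := right_ne_zero_of_mul_eq_one zK_zi
  constructor
  · rw [VK, HahnSeries.order_mul hne hz, h1, zi_order.1]; rfl
  · rw [VK, HahnSeries.leadingCoeff_mul, h2, zi_order.2, hc, mul_one]

theorem yK_order {a : ℕ → ℂ} (h0 : a 0 = 1) :
    (yK a).order = -1 ∧ (yK a).leadingCoeff = 1 / 2 := by
  have hc : PowerSeries.coeff 0 (BP a) = 1 / 2 := by simp [BP, Bc, h0]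
  obtain ⟨h1, h2⟩ := ofP_order (f := BP a) (by rw [hc]; norm_num)
  have hne : ofP (BP a) ≠ 0 := by
    intro h
    rw [h, HahnSeries.leadingCoeff_zero] at h2
    rw [← h2] at hc; norm_num at hc
  have hz : zi ≠ 0 := right_ne_zero_of_mul_eq_one zK_zi
  constructor
  · rw [yK, HahnSeries.order_mul hne hz, h1, zi_order.1]; rfl
  · rw [yK, HahnSeries.leadingCoeff_mul, h2, zi_order.2, hc, mul_one]

end Vale.Agent.P097.H541
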