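import Mathlib
import Vale.Agent.P097.H541.AlgK

/-!
P097, disc case: the algebra half (L3)-(L7): the two coefficient identities (C1), (C2) imply that
the formal table is a conic.
-/

set_option linter.all false

namespace Vale.Agent.P097.H541

open Vale.Agent.P097.H779.Disc Vale.Agent.P097.Disc

theorem zK_sq : (HahnSeries.single (2 : ℤ) (1 : ℂ) : K) = zK ^ 2 := by
  rw [zK, sq, HahnSeries.single_mul_single]
  norm_num

theorem ofP_X : ofP PowerSeries.X = zK := by
  rw [zK, HahnSeries.ofPowerSeries_X]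

theorem ofP_C (c : ℂ) : ofP (PowerSeries.C c) = HahnSeries.C c := by
  rw [HahnSeries.ofPowerSeries_C]

theorem ofP_inj : Function.Injective ofP := HahnSeries.ofPowerSeries_injective

/-- (L4), final form: the top form is exact, `Q_{d-1}(1,V) = Φ'(V)/d` -/
theorem exact_top {Q P : Polynomial (Polynomial ℂ)} {d : ℕ} (h : PQ Q P d) {V y : K}
    (hDV : Dz V ≠ 0) (hy0 : y ≠ 0) (hRel : Dz V + Dz y = -(2 * y))
    (h3 : y ^ d = (Phi Q P d).eval₂ (HahnSeries.C : ℂ →+* K) V)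
    (h4 : Dz V * (y ^ (d - 1) + (hom Q (d - 1)).eval₂ (HahnSeries.C : ℂ →+* K) V)
      = -2 * y ^ d) :
    Polynomial.derivative (Phi Q P d) = (d : Polynomial ℂ) * hom Q (d - 1) := by
  apply pV_inj hDV
  rw [map_mul, map_natCast]
  have e1 : Dz (y ^ d) = pV V (Polynomial.derivative (Phi Q P d)) * Dz V := by
    rw [h3, ← pV_apply, ← dl_pV hDV, dl, div_mul_cancel₀ _ hDV]
  have e2 := Dz_pow y d
  rw [e1] at e2
  rw [← pV_apply] at h4
  have hd := h.hd
  have e3 : y ^ d = y ^ (d - 1) * y := by rw [← pow_succ]; congr 1; omega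
  have e4 : Dz y = -(2 * y) - Dz V := by linear_combination hRel
  apply mul_left_cancel₀ hy0
  apply mul_right_cancel₀ hDV
  rw [e4] at e2
  have e5 : (d : K) * y * (Dz V * (y ^ (d - 1) + pV V (hom Q (d - 1)))) =
      (d : K) * y * (-2 * y ^ d) := by rw [h4]
  linear_combination e2 - e5 - (d : K) * Dz V * e3

/-- the relation (F) needed by `L67` -/
theorem relF {Q P : Polynomial (Polynomial ℂ)} {d : ℕ} (h : PQ Q P d) (hd3 : 3 ≤ d) {V y : K}
    (hC1 : CC1 (HahnSeries.C : ℂ →+* K) Q P d zK (zK * V) (zK * y))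
    (hex : Polynomial.derivative (Phi Q P d) = (d : Polynomial ℂ) * hom Q (d - 1)) :
    ∃ (χ : Polynomial ℂ) (g : ℂ),
      ((d : K) - 2) * (HahnSeries.single (2 : ℤ) (1 : ℂ) : K) * y *
        ((Polynomial.derivative (Phi Q P d)).eval₂ (HahnSeries.C : ℂ →+* K) V / (d : K) -
          (V + HahnSeries.C ((Phi Q P d).coeff (d - 1) / d)) * y ^ (d - 2)) =
        HahnSeries.C g * y ^ (d - 2) - χ.eval₂ (HahnSeries.C : ℂ →+* K) V := by
  have h5 := L5 h hd3 zK_ne hC1
  refine ⟨Polynomial.X * hom Q (d - 3) - hom P (d - 2), (Q.coeff (d - 3)).coeff 0, ?_⟩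
  have hdC : (d : ℂ) ≠ 0 := by
    have : d ≠ 0 := by omega
    exact_mod_cast this
  have hdK : (d : K) ≠ 0 := by
    have : (d : K) = HahnSeries.C (d : ℂ) := (map_natCast HahnSeries.C d).symm
    rw [this]
    exact fun e => hdC (C_eq_zero' e)
  -- derivative of Φ
  have e1 : Polynomial.derivative (Phi Q P d) = hom Q (d - 1) +
      Polynomial.X * Polynomial.derivative (hom Q (d - 1)) - Polynomial.derivative (hom P d) := by
    rw [Phi, Polynomial.derivative_sub, Polynomial.derivative_mul, Polynomial.derivative_X]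
    ring
  have e2 := congrArg (fun f : Polynomial ℂ => f.eval₂ (HahnSeries.C : ℂ →+* K) V) e1
  simp only [Polynomial.eval₂_sub, Polynomial.eval₂_add, Polynomial.eval₂_mul,
    Polynomial.eval₂_X] at e2
  have e3 := congrArg (fun f : Polynomial ℂ => f.eval₂ (HahnSeries.C : ℂ →+* K) V) hex
  simp only [Polynomial.eval₂_mul, Polynomial.eval₂_natCast] at e3
  -- the coefficients q1, p1
  have c1 : (Phi Q P d).coeff (d - 1) = (Q.coeff (d - 2)).coeff 1 - (P.coeff (d - 1)).coeff 1 := by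
    obtain ⟨k, rfl⟩ : ∃ k, d = k + 2 := ⟨d - 2, by omega⟩
    rw [Phi, Polynomial.coeff_sub]
    have s1 : k + 2 - 1 = k + 1 := by omega
    have s2 : k + 2 - 2 = k := by omega
    rw [s1, s2, Polynomial.coeff_X_mul, hom_coeff Q _ _ (by omega), hom_coeff P _ _ (by omega)]
    have s3 : k + 1 - k = 1 := by omega
    have s4 : k + 2 - (k + 1) = 1 := by omega
    rw [s3, s4]
  have c2 : ((d : ℂ) - 1) * (Phi Q P d).coeff (d - 1) = (d : ℂ) * (Q.coeff (d - 2)).coeff 1 := by
    have := congrArg (fun f : Polynomial ℂ => f.coeff (d - 2)) hex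
    simp only [Polynomial.coeff_derivative, Polynomial.coeff_natCast_mul] at this
    rw [hom_coeff Q _ _ (by omega)] at this
    have s1 : d - 2 + 1 = d - 1 := by omega
    have s2 : d - 1 - (d - 2) = 1 := by omega
    have s3 : ((d - 2 : ℕ) : ℂ) + 1 = (d : ℂ) - 1 := by
      rw [Nat.cast_sub (by omega)]
      push_cast
      ring
    rw [s1, s2, s3] at this
    linear_combination this
  have c3 : (Q.coeff (d - 2)).coeff 1 + (P.coeff (d - 1)).coeff 1 =
      ((d : ℂ) - 2) * ((Phi Q P d).coeff (d - 1) / d) := by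
    field_simp
    linear_combination (-2 : ℂ) * c2 + (d : ℂ) * c1
  have c4 := congrArg (HahnSeries.C : ℂ →+* K) c3
  have c5 : (HahnSeries.C ((d : ℂ) - 2) : K) = (d : K) - 2 := by
    rw [map_sub, map_natCast, map_ofNat]
  rw [map_add, map_mul, c5] at c4
  rw [zK_sq, Polynomial.eval₂_sub, Polynomial.eval₂_mul, Polynomial.eval₂_X]
  have e4 : (Polynomial.derivative (Phi Q P d)).eval₂ (HahnSeries.C : ℂ →+* K) V / (d : K) =
      (hom Q (d - 1)).eval₂ (HahnSeries.C : ℂ →+* K) V := by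
    rw [e3, mul_div_cancel_left₀ _ hdK]
  have e5 : y ^ (d - 1) = y ^ (d - 2) * y := by rw [← pow_succ]; congr 1; omega
  rw [e4]
  rw [e5] at h5
  rw [e3] at e2
  linear_combination h5 + zK ^ 2 * y * e2 + zK ^ 2 * y ^ (d - 2) * y * c4

/-- the algebra half in `ℂ((z))` -/
theorem algK (a : ℕ → ℂ) (ha : a 0 = 1) {Q P : Polynomial (Polynomial ℂ)} {d : ℕ} (h : PQ Q P d)
    (hC1 : CC1 (HahnSeries.C : ℂ →+* K) Q P d zK (ofP (AP a)) (ofP (BP a)))
    (hC2 : CC2 (HahnSeries.C : ℂ →+* K) Q P d zK (ofP (AP a)) (ofP (BP a)) (ofP (RP a))) :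
    ∃ c b : ℂ, (PowerSeries.mk a + PowerSeries.C c * PowerSeries.X) ^ 2 =
      1 + PowerSeries.C b * PowerSeries.X ^ 2 := by
  obtain ⟨hVo, hVl⟩ := VK_order ha
  obtain ⟨hyo, hyl⟩ := yK_order ha
  have hV0 : VK a ≠ 0 := by
    intro e; rw [e] at hVo; simp at hVo
  have hy0 : yK a ≠ 0 := by
    intro e; rw [e] at hyo; simp at hyo
  obtain ⟨hDV, -, -⟩ := order_Dz hV0 (by rw [hVo]; norm_num)
  rw [← zV, ← zy] at hC1 hC2
  rw [hρ] at hC2
  have h2K : (2 : K) ≠ 0 := by
    have : (2 : K) = HahnSeries.C (2 : ℂ) := (map_ofNat HahnSeries.C 2).symm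
    rw [this]
    exact fun e => two_ne_zero (C_eq_zero' e)
  have h3 := L3 h zK_ne hC1
  have h4 := L4 h zK_ne h2K hC2
  have hex := exact_top h hDV hy0 (hR a) h3 h4
  obtain ⟨hmon, hdeg⟩ := Phi_monic h
  obtain ⟨α, β, hαβ⟩ := L67 (VK a) (yK a) hVo hyo (by rw [hVl, hyl]) (hR a) (Phi Q P d) hmon
    (by rw [hdeg]; exact h.hd) (by rw [hdeg]; exact h3)
    (by
      rw [hdeg]
      intro hd3
      exact relF h hd3 hC1 hex)
  obtain ⟨c, b, hcb⟩ := FIN (VK a) (yK a) hVo hyo hVl hyl (hR a) α β hαβ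
  refine ⟨c, b, ofP_inj ?_⟩
  rw [map_pow, map_add, map_mul, map_add, map_mul, map_pow, map_one, ofP_X, ofP_C, ofP_C, ← hV_add,
    ← zK_sq]
  exact hcb

end Vale.Agent.P097.H541
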