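import Mathlib
import Vale.Agent.P097.H541.AlgFin

/-!
P097, disc case: the algebra half, final form.  Input: (C1), (C2) in `L⟦z⟧` at a transcendental
`ξ ∈ L`; output: the formal table is a conic.
-/

set_option linter.all false

namespace Vale.Agent.P097.H541

open Vale.Agent.P097.H779.Disc Vale.Agent.P097.Disc

section

variable {L : Type*} [Field L] [Algebra ℂ L]

/-- constants `ℂ → L⟦z⟧` -/
noncomputable def kL (L : Type*) [Field L] [Algebra ℂ L] : ℂ →+* PowerSeries L :=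
  PowerSeries.C.comp (algebraMap ℂ L)

/-- `F(z x, A x + B / x)` in `L⟦z⟧` (`F` a polynomial in `p` over `ℂ[N]`) -/
noncomputable def evL (a : ℕ → ℂ) (F : Polynomial (Polynomial ℂ)) (x : L) : PowerSeries L :=
  Polynomial.eval₂ (Polynomial.eval₂RingHom (kL L) (PowerSeries.X * PowerSeries.C x)) (pz a x) F

/-- `A x - B / x` -/
noncomputable def mz (a : ℕ → ℂ) (x : L) : PowerSeries L :=
  PowerSeries.mk fun n => algebraMap ℂ L (Ac a n) * x - algebraMap ℂ L (Bc a n) * x⁻¹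

/-- `Π(x) = (A x - B / x) Q - P` -/
noncomputable def PiL (a : ℕ → ℂ) (Q P : Polynomial (Polynomial ℂ)) (x : L) : PowerSeries L :=
  mz a x * evL a Q x - evL a P x

/-- `ρ = h - D² h` -/
noncomputable def rhoL (L : Type*) [Field L] [Algebra ℂ L] (a : ℕ → ℂ) : PowerSeries L :=
  PowerSeries.mk fun n => algebraMap ℂ L ((1 - (n : ℂ) ^ 2) * a n)

theorem pz_eq (a : ℕ → ℂ) (x : L) : pz a x =
    PowerSeries.map (algebraMap ℂ L) (AP a) * PowerSeries.C x +
      PowerSeries.map (algebraMap ℂ L) (BP a) * PowerSeries.C x⁻¹ := by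
  ext n
  rw [map_add, PowerSeries.coeff_mul_C, PowerSeries.coeff_mul_C, pz]
  simp [AP, BP]

theorem mz_eq (a : ℕ → ℂ) (x : L) : mz a x =
    PowerSeries.map (algebraMap ℂ L) (AP a) * PowerSeries.C x -
      PowerSeries.map (algebraMap ℂ L) (BP a) * PowerSeries.C x⁻¹ := by
  ext n
  rw [map_sub, PowerSeries.coeff_mul_C, PowerSeries.coeff_mul_C, mz]
  simp [AP, BP]

theorem rhoL_eq (a : ℕ → ℂ) : rhoL L a = PowerSeries.map (algebraMap ℂ L) (RP a) := by
  ext n
  simp [rhoL, RP]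

theorem kL_eq : kL L = (PowerSeries.map (algebraMap ℂ L)).comp PowerSeries.C := by
  ext c
  simp [kL]

theorem evL_eq (a : ℕ → ℂ) (F : Polynomial (Polynomial ℂ)) (x : L) :
    evL a F x = evNP (kL L) F (PowerSeries.X * PowerSeries.C x)
      (PowerSeries.map (algebraMap ℂ L) (AP a) * PowerSeries.C x +
      PowerSeries.map (algebraMap ℂ L) (BP a) * PowerSeries.C x⁻¹) := by
  rw [evL, evNP, pz_eq]

variable {a : ℕ → ℂ} {Q P : Polynomial (Polynomial ℂ)} {d : ℕ} {ξ : L}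

theorem chkL (n : ℕ) (F : Polynomial (Polynomial ℂ))
    (hF : ∀ i j, n < i + j → (F.coeff j).coeff i = 0) (hξ0 : ξ ≠ 0) :
    (PowerSeries.C ξ) ^ n * evL a F ξ =
      ((wsum n (Hc PowerSeries.C F PowerSeries.X (AP a) (BP a))).map
        (PowerSeries.map (algebraMap ℂ L))).eval (PowerSeries.C ξ) := by
  rw [wsum_map _ _ _ _ (fun m => Hc_map _ _ F _ _ _ m), ← kL_eq, PowerSeries.map_X, evL_eq]
  exact chk_eval (kL L) F n hF _ _ _ _ _ (by rw [← map_mul, mul_inv_cancel₀ hξ0, map_one])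

theorem hatL (n : ℕ) (F : Polynomial (Polynomial ℂ))
    (hF : ∀ i j, n < i + j → (F.coeff j).coeff i = 0) (hξ0 : ξ ≠ 0) :
    (PowerSeries.C ξ) ^ n * evL a F ξ⁻¹ =
      ((wsum n (Hh PowerSeries.C F PowerSeries.X (AP a) (BP a))).map
        (PowerSeries.map (algebraMap ℂ L))).eval (PowerSeries.C ξ) := by
  rw [wsum_map _ _ _ _ (fun m => Hh_map _ _ F _ _ _ m), ← kL_eq, PowerSeries.map_X, evL_eq,
    inv_inv]
  exact hat_eval (kL L) F n hF _ _ _ _ _ (by rw [← map_mul, mul_inv_cancel₀ hξ0, map_one])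

theorem PiL_chk (h : PQ Q P d) (hξ0 : ξ ≠ 0) :
    (PowerSeries.C ξ) ^ d * PiL a Q P ξ =
      (((Polynomial.C (AP a) * Polynomial.X ^ 2 - Polynomial.C (BP a)) *
        wsum (d - 1) (Hc PowerSeries.C Q PowerSeries.X (AP a) (BP a)) -
        wsum d (Hc PowerSeries.C P PowerSeries.X (AP a) (BP a))).map
        (PowerSeries.map (algebraMap ℂ L))).eval (PowerSeries.C ξ) := by
  have h1 := chkL (a := a) (ξ := ξ) (d - 1) Q h.hQt hξ0
  have h2 := chkL (a := a) (ξ := ξ) d P h.hPt hξ0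
  have hd := h.hd
  have e2 : (PowerSeries.C ξ : PowerSeries L) ^ d =
    (PowerSeries.C ξ) ^ (d - 1) * PowerSeries.C ξ := by rw [← pow_succ]; congr 1; omega
  have e3 : (PowerSeries.C ξ : PowerSeries L) * PowerSeries.C ξ⁻¹ = 1 := by
    rw [← map_mul, mul_inv_cancel₀ hξ0, map_one]
  simp only [Polynomial.map_sub, Polynomial.map_mul, Polynomial.map_pow, Polynomial.map_C,
    Polynomial.map_X, Polynomial.eval_sub, Polynomial.eval_mul, Polynomial.eval_pow,
    Polynomial.eval_C, Polynomial.eval_X]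
  rw [← h1, ← h2, PiL, mz_eq, e2]
  linear_combination (-(PowerSeries.C ξ) ^ (d - 1) * PowerSeries.map (algebraMap ℂ L) (BP a) *
    evL a Q ξ) * e3

theorem PiL_hat (h : PQ Q P d) (hξ0 : ξ ≠ 0) :
    (PowerSeries.C ξ) ^ d * PiL a Q P ξ⁻¹ =
      (((Polynomial.C (AP a) - Polynomial.C (BP a) * Polynomial.X ^ 2) *
        wsum (d - 1) (Hh PowerSeries.C Q PowerSeries.X (AP a) (BP a)) -
        wsum d (Hh PowerSeries.C P PowerSeries.X (AP a) (BP a))).map
        (PowerSeries.map (algebraMap ℂ L))).eval (PowerSeries.C ξ) := by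
  have h1 := hatL (a := a) (ξ := ξ) (d - 1) Q h.hQt hξ0
  have h2 := hatL (a := a) (ξ := ξ) d P h.hPt hξ0
  have hd := h.hd
  have e2 : (PowerSeries.C ξ : PowerSeries L) ^ d =
    (PowerSeries.C ξ) ^ (d - 1) * PowerSeries.C ξ := by rw [← pow_succ]; congr 1; omega
  have e3 : (PowerSeries.C ξ : PowerSeries L) * PowerSeries.C ξ⁻¹ = 1 := by
    rw [← map_mul, mul_inv_cancel₀ hξ0, map_one]
  simp only [Polynomial.map_sub, Polynomial.map_mul, Polynomial.map_pow, Polynomial.map_C,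
    Polynomial.map_X, Polynomial.eval_sub, Polynomial.eval_mul, Polynomial.eval_pow,
    Polynomial.eval_C, Polynomial.eval_X]
  rw [← h1, ← h2, PiL, mz_eq, inv_inv, e2]
  linear_combination ((PowerSeries.C ξ) ^ (d - 1) * PowerSeries.map (algebraMap ℂ L) (AP a) *
    evL a Q ξ⁻¹) * e3

/-- **The algebra half.** -/
theorem algHalf (ha : a 0 = 1) (h : PQ Q P d) (hξ : Transcendental ℂ ξ)
    (hC1 : PiL a Q P ξ⁻¹ = - PiL a Q P ξ)
    (hC2 : rhoL L a * PowerSeries.C (ξ - ξ⁻¹) * (evL a Q ξ + evL a Q ξ⁻¹) = 4 * PiL a Q P ξ) :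
    ∃ c b : ℂ, (PowerSeries.mk a + PowerSeries.C c * PowerSeries.X) ^ 2 =
      1 + PowerSeries.C b * PowerSeries.X ^ 2 := by
  have hξ0 : ξ ≠ 0 := by
    rintro rfl
    exact hξ isAlgebraic_zero
  have hd := h.hd
  have e2 : (PowerSeries.C ξ : PowerSeries L) ^ d =
    (PowerSeries.C ξ) ^ (d - 1) * PowerSeries.C ξ := by rw [← pow_succ]; congr 1; omega
  have e3 : (PowerSeries.C ξ : PowerSeries L) * PowerSeries.C ξ⁻¹ = 1 := by
    rw [← map_mul, mul_inv_cancel₀ hξ0, map_one]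
  have c1 : CC1 PowerSeries.C Q P d PowerSeries.X (AP a) (BP a) := by
    refine sub_eq_zero.mp (poly_eq_zero ξ hξ _ ?_)
    rw [Polynomial.map_sub, Polynomial.eval_sub, Polynomial.map_neg, Polynomial.eval_neg,
      ← PiL_chk h hξ0, ← PiL_hat h hξ0, hC1]
    ring
  have c2 : CC2 PowerSeries.C Q P d PowerSeries.X (AP a) (BP a) (RP a) := by
    refine sub_eq_zero.mp (poly_eq_zero ξ hξ _ ?_)
    have h1 := chkL (a := a) (ξ := ξ) (d - 1) Q h.hQt hξ0
    have h2 := hatL (a := a) (ξ := ξ) (d - 1) Q h.hQt hξ0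
    rw [Polynomial.map_sub, Polynomial.eval_sub, Polynomial.map_mul (p := 4),
      Polynomial.eval_mul (p := Polynomial.map _ 4), ← PiL_chk h hξ0]
    simp only [Polynomial.map_sub, Polynomial.map_mul, Polynomial.map_pow, Polynomial.map_C,
      Polynomial.map_X, Polynomial.eval_sub, Polynomial.eval_mul, Polynomial.eval_pow,
      Polynomial.eval_C, Polynomial.eval_X, Polynomial.map_add, Polynomial.eval_add,
      Polynomial.map_one, Polynomial.eval_one, Polynomial.map_ofNat, Polynomial.eval_ofNat]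
    rw [← h1, ← h2, ← rhoL_eq]
    rw [map_sub] at hC2
    linear_combination (PowerSeries.C ξ) ^ d * hC2 +
      (rhoL L a * (PowerSeries.C ξ) ^ (d - 1) * (evL a Q ξ + evL a Q ξ⁻¹)) * e3 -
      (rhoL L a * (PowerSeries.C ξ - PowerSeries.C ξ⁻¹) * (evL a Q ξ + evL a Q ξ⁻¹)) * e2
  have k : (ofP).comp PowerSeries.C = (HahnSeries.C : ℂ →+* K) := by
    ext c : 1
    exact ofP_C c
  have c1' := c1.map ofP
  have c2' := c2.map ofP
  rw [k, ofP_X] at c1' c2'
  exact algK a ha h c1' c2'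

/-- the algebra half with the normalisation `a 1 = 0` -/
theorem algHalf' (ha : a 0 = 1) (ha1 : a 1 = 0) (h : PQ Q P d) (hξ : Transcendental ℂ ξ)
    (hC1 : PiL a Q P ξ⁻¹ = - PiL a Q P ξ)
    (hC2 : rhoL L a * PowerSeries.C (ξ - ξ⁻¹) * (evL a Q ξ + evL a Q ξ⁻¹) = 4 * PiL a Q P ξ) :
    ∃ b : ℂ, (PowerSeries.mk a) ^ 2 = 1 + PowerSeries.C b * PowerSeries.X ^ 2 := by
  obtain ⟨c, b, e⟩ := algHalf ha h hξ hC1 hC2
  have e1 := congrArg (PowerSeries.coeff 1) e
  rw [sq, PowerSeries.coeff_mul, Finset.Nat.sum_antidiagonal_eq_sum_range_succ_mk] at e1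
  have hc : c = 0 := by
    have l : PowerSeries.coeff 1 (PowerSeries.mk a + PowerSeries.C c * PowerSeries.X) = c := by
      rw [map_add, PowerSeries.coeff_mk, ha1, PowerSeries.coeff_C_mul, PowerSeries.coeff_one_X]
      ring
    have l0 : PowerSeries.coeff 0 (PowerSeries.mk a + PowerSeries.C c * PowerSeries.X) = 1 := by
      rw [map_add, PowerSeries.coeff_mk, ha, PowerSeries.coeff_C_mul, PowerSeries.coeff_zero_X]
      ring
    have r : PowerSeries.coeff 1 (1 + PowerSeries.C b * PowerSeries.X ^ 2 : PowerSeries ℂ) = 0 := by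
      rw [map_add, PowerSeries.coeff_C_mul, PowerSeries.coeff_X_pow, PowerSeries.coeff_one]
      simp
    rw [r] at e1
    simp only [Finset.sum_range_succ, Finset.range_zero, Finset.sum_empty, zero_add,
      Nat.sub_zero, Nat.sub_self] at e1
    rw [l, l0] at e1
    have : 2 * c = 0 := by linear_combination e1
    simpa using this
  refine ⟨b, ?_⟩
  rw [hc] at e
  simpa using e

end

end Vale.Agent.P097.H541
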