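import Vale.Agent.P097.H490.D3.Wt
import Vale.Agent.P097.H123.D3Asm

/-!
P097, disc case, block S2: from the relation `X1 F = X2` in `ℂ[[N, δ]]` to the simple pole
`p = c + φ(N)` of the slope `F` (helper541).
-/

set_option linter.all false

open scoped Polynomial

namespace Vale.Agent.P097.H541

open Vale.Agent.P097.H490.D3 Vale.Agent.P097.D3 Vale.Agent.P097.Disc

/-- the exponent `N^n δ^j` -/
noncomputable def ex (n j : ℕ) : Fin 2 →₀ ℕ := Finsupp.single 0 n + Finsupp.single 1 j

@[simp] theorem ex_zero (n j : ℕ) : ex n j 0 = n := by simp [ex]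
@[simp] theorem ex_one (n j : ℕ) : ex n j 1 = j := by simp [ex]

theorem eq_ex (e : Fin 2 →₀ ℕ) : ex (e 0) (e 1) = e := by
  ext i
  fin_cases i <;> simp

theorem ex_eq {n j : ℕ} {e : Fin 2 →₀ ℕ} (h0 : e 0 = n) (h1 : e 1 = j) : ex n j = e := by
  rw [← h0, ← h1, eq_ex]

theorem sum_antidiagonal_ex {M : Type*} [AddCommMonoid M] (n j : ℕ)
    (φ : (Fin 2 →₀ ℕ) → (Fin 2 →₀ ℕ) → M) :
    ∑ p ∈ Finset.HasAntidiagonal.antidiagonal (ex n j), φ p.1 p.2 =
      ∑ ab ∈ Finset.HasAntidiagonal.antidiagonal n, ∑ cd ∈ Finset.HasAntidiagonal.antidiagonal j,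
        φ (ex ab.1 cd.1) (ex ab.2 cd.2) := by
  rw [← Finset.sum_product']
  refine Finset.sum_nbij' (fun p => ((p.1 0, p.2 0), (p.1 1, p.2 1)))
    (fun q => (ex q.1.1 q.2.1, ex q.1.2 q.2.2)) ?_ ?_ ?_ ?_ ?_
  · intro p hp
    rw [Finset.HasAntidiagonal.mem_antidiagonal] at hp
    rw [Finset.mem_product, Finset.HasAntidiagonal.mem_antidiagonal, Finset.HasAntidiagonal.mem_antidiagonal]
    constructor
    · have := congrArg (fun e => e 0) hp
      simpa using this
    · have := congrArg (fun e => e 1) hp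
      simpa using this
  · intro q hq
    rw [Finset.mem_product, Finset.HasAntidiagonal.mem_antidiagonal, Finset.HasAntidiagonal.mem_antidiagonal] at hq
    rw [Finset.HasAntidiagonal.mem_antidiagonal]
    symm
    apply ex_eq
    · simpa using hq.1
    · simpa using hq.2
  · intro p hp
    simp [eq_ex]
  · intro q hq
    simp
  · intro p hp
    simp [eq_ex]

/-- `ℂ[[N, δ]] → ℂ[[δ]][[N]]` -/
noncomputable def Psi : RR →+* PowerSeries (PowerSeries ℂ) where
  toFun f := PowerSeries.mk fun n => PowerSeries.mk fun j => MvPowerSeries.coeff (ex n j) f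
  map_zero' := by
    ext n j
    simp
  map_add' f g := by
    ext n j
    simp
  map_one' := by
    classical
    ext n j
    rw [PowerSeries.coeff_mk, PowerSeries.coeff_mk, MvPowerSeries.coeff_one, PowerSeries.coeff_one]
    by_cases hn : n = 0
    · subst hn
      rw [if_pos rfl, PowerSeries.coeff_one]
      by_cases hj : j = 0
      · subst hj
        simp [ex]
      · rw [if_neg hj, if_neg]
        intro h
        have := congrArg (fun e => e 1) h
        simp at this
        exact hj this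
    · rw [if_neg hn, if_neg, map_zero]
      intro h
      have := congrArg (fun e => e 0) h
      simp at this
      exact hn this
  map_mul' f g := by
    classical
    ext n j
    rw [PowerSeries.coeff_mk, PowerSeries.coeff_mk, MvPowerSeries.coeff_mul,
      sum_antidiagonal_ex n j (fun a b => MvPowerSeries.coeff a f * MvPowerSeries.coeff b g),
      PowerSeries.coeff_mul, map_sum]
    refine Finset.sum_congr rfl fun ab _ => ?_
    rw [PowerSeries.coeff_mul, PowerSeries.coeff_mk, PowerSeries.coeff_mk]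
    refine Finset.sum_congr rfl fun cd _ => ?_
    rw [PowerSeries.coeff_mk, PowerSeries.coeff_mk]

theorem Psi_coeff (f : RR) (n j : ℕ) :
    PowerSeries.coeff j (PowerSeries.coeff n (Psi f)) = MvPowerSeries.coeff (ex n j) f := by
  simp [Psi]

theorem Psi_C (c : ℂ) : Psi (MvPowerSeries.C c) = PowerSeries.C (PowerSeries.C c) := by
  classical
  ext n j
  rw [Psi_coeff, MvPowerSeries.coeff_C, PowerSeries.coeff_C]
  by_cases hn : n = 0
  · subst hn
    rw [if_pos rfl, PowerSeries.coeff_C]
    by_cases hj : j = 0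
    · subst hj
      simp [ex]
    · rw [if_neg hj, if_neg]
      intro h
      have := congrArg (fun e => e 1) h
      simp at this
      exact hj this
  · rw [if_neg hn, if_neg, map_zero]
    intro h
    have := congrArg (fun e => e 0) h
    simp at this
    exact hn this

theorem Psi_X0 : Psi (MvPowerSeries.X 0) = PowerSeries.X := by
  classical
  ext n j
  rw [Psi_coeff, MvPowerSeries.coeff_X, PowerSeries.coeff_X]
  by_cases hn : n = 1
  · subst hn
    rw [if_pos rfl, PowerSeries.coeff_one]
    by_cases hj : j = 0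
    · subst hj
      simp [ex]
    · rw [if_neg hj, if_neg]
      intro h
      have := congrArg (fun e => e 1) h
      simp at this
      exact hj this
  · rw [if_neg hn, if_neg, map_zero]
    intro h
    have := congrArg (fun e => e 0) h
    simp at this
    exact hn this

theorem Psi_X1 : Psi (MvPowerSeries.X 1) = PowerSeries.C PowerSeries.X := by
  classical
  ext n j
  rw [Psi_coeff, MvPowerSeries.coeff_X, PowerSeries.coeff_C]
  by_cases hn : n = 0
  · subst hn
    rw [if_pos rfl, PowerSeries.coeff_X]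
    by_cases hj : j = 1
    · subst hj
      simp [ex]
    · rw [if_neg hj, if_neg]
      intro h
      have := congrArg (fun e => e 1) h
      simp at this
      exact hj this
  · rw [if_neg hn, if_neg, map_zero]
    intro h
    have := congrArg (fun e => e 0) h
    simp at this
    exact hn this

/-- Taylor expansion at `c` -/
noncomputable def Tc (c : ℂ) : ℂ[X] →+* PowerSeries ℂ :=
  (Polynomial.coeToPowerSeries.ringHom).comp (Polynomial.compRingHom (Polynomial.X + Polynomial.C c))

theorem Tc_X (c : ℂ) : Tc c Polynomial.X = PowerSeries.X + PowerSeries.C c := by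
  simp [Tc]

theorem Tc_C (c a : ℂ) : Tc c (Polynomial.C a) = PowerSeries.C a := by
  simp [Tc]

theorem Psi_aeval (c : ℂ) (f : ℂ[X]) :
    Psi (Polynomial.aeval (MvPowerSeries.C c + MvPowerSeries.X 1 : RR) f) =
      PowerSeries.C (Tc c f) := by
  have h : (Psi.comp (Polynomial.aeval (R := ℂ)
      (MvPowerSeries.C c + MvPowerSeries.X 1 : RR)).toRingHom) =
      (PowerSeries.C).comp (Tc c) := by
    apply Polynomial.ringHom_ext
    · intro a
      simp only [RingHom.comp_apply, AlgHom.toRingHom_eq_coe, RingHom.coe_coe,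
        Polynomial.aeval_C, Tc_C]
      rw [show (algebraMap ℂ RR) a = MvPowerSeries.C a from rfl, Psi_C]
    · simp only [RingHom.comp_apply, AlgHom.toRingHom_eq_coe, RingHom.coe_coe,
        Polynomial.aeval_X, Tc_X]
      rw [map_add, Psi_C, Psi_X1, map_add, add_comm]
  exact congrArg (fun φ : ℂ[X] →+* PowerSeries (PowerSeries ℂ) => φ f) h

/-! ### Weierstrass preparation by hand -/

/-- the unit `V` with `V X1 = δ - φ(N)` -/
noncomputable def Vn (x : ℕ → PowerSeries ℂ) (ui : PowerSeries ℂ) : ℕ → PowerSeries ℂ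
  | n => (PowerSeries.mk fun j => PowerSeries.coeff (j + 1)
      ((if n = 0 then PowerSeries.X else 0) - ∑ k : Fin n, Vn x ui k * x (n - k))) * ui

theorem shift_mul (r : PowerSeries ℂ) (h : PowerSeries.constantCoeff r = 0) :
    (PowerSeries.mk fun j => PowerSeries.coeff (j + 1) r) * PowerSeries.X = r := by
  ext j
  cases j with
  | zero =>
    rw [PowerSeries.coeff_zero_mul_X, PowerSeries.coeff_zero_eq_constantCoeff_apply, h]
  | succ j => rw [PowerSeries.coeff_succ_mul_X, PowerSeries.coeff_mk]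

theorem weier (x : ℕ → PowerSeries ℂ) (h0 : PowerSeries.constantCoeff (x 0) = 0)
    (h1 : PowerSeries.coeff 1 (x 0) ≠ 0) :
    ∃ (V : ℕ → PowerSeries ℂ) (φ : ℕ → ℂ), φ 0 = 0 ∧
      PowerSeries.mk V * PowerSeries.mk x = PowerSeries.C PowerSeries.X -
        PowerSeries.mk (fun n => PowerSeries.C (φ n)) := by
  set u : PowerSeries ℂ := PowerSeries.mk fun j => PowerSeries.coeff (j + 1) (x 0) with hu
  have hxu : x 0 = u * PowerSeries.X := (shift_mul _ h0).symm
  have hu0 : PowerSeries.constantCoeff u ≠ 0 := by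
    rw [← PowerSeries.coeff_zero_eq_constantCoeff_apply, hu, PowerSeries.coeff_mk]
    exact h1
  have hui : u * u⁻¹ = 1 := PowerSeries.mul_inv_cancel u hu0
  set V := Vn x u⁻¹ with hV
  set S : ℕ → PowerSeries ℂ := fun n => ∑ k : Fin n, V k * x (n - k) with hS
  refine ⟨V, fun n => - PowerSeries.constantCoeff (S n), by simp [hS], ?_⟩
  ext1 n
  rw [PowerSeries.coeff_mul, Finset.Nat.sum_antidiagonal_eq_sum_range_succ_mk,
    Finset.sum_range_succ, map_sub, PowerSeries.coeff_mk, PowerSeries.coeff_C, Nat.sub_self]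
  simp only [PowerSeries.coeff_mk]
  have e1 : ∑ k ∈ Finset.range n, V k * x (n - k) = S n := by
    rw [hS, Finset.sum_range]
  rw [e1]
  set r : PowerSeries ℂ := (if n = 0 then PowerSeries.X else 0) - S n with hr
  have e2 : V n = (PowerSeries.mk fun j => PowerSeries.coeff (j + 1) r) * u⁻¹ := by
    rw [hV, Vn]
  have hr0 : PowerSeries.constantCoeff (r + PowerSeries.C (PowerSeries.constantCoeff (S n))) = 0 := by
    rw [hr]
    split_ifs <;> simp
  have e3 := shift_mul _ hr0
  have e4 : (PowerSeries.mk fun j => PowerSeries.coeff (j + 1)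
      (r + PowerSeries.C (PowerSeries.constantCoeff (S n)))) =
      PowerSeries.mk fun j => PowerSeries.coeff (j + 1) r := by
    ext j
    rw [PowerSeries.coeff_mk, PowerSeries.coeff_mk, map_add, PowerSeries.coeff_C,
      if_neg (by omega), add_zero]
  rw [e4] at e3
  have e5 : V n * x 0 = r + PowerSeries.C (PowerSeries.constantCoeff (S n)) := by
    rw [e2, hxu, ← e3]
    linear_combination ((PowerSeries.mk fun j => PowerSeries.coeff (j + 1) r) *
      PowerSeries.X) * hui
  rw [e5, hr, map_neg]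
  ring

/-! ### divisibility -/

theorem regAt_of_Tc {c : ℂ} {G g : ℂ[X]} (hg : g ≠ 0) {W : PowerSeries ℂ}
    (h : Tc c G = W * Tc c g) : RegAt (pr G / pr g) c := by
  obtain ⟨g1, hg1, hg1c⟩ := Polynomial.exists_eq_pow_rootMultiplicity_mul_and_not_dvd g hg c
  set k := Polynomial.rootMultiplicity c g with hk
  have hg1e : g1.eval c ≠ 0 := by
    intro h0
    exact hg1c (Polynomial.dvd_iff_isRoot.mpr h0)
  have hT : Tc c (Polynomial.X - Polynomial.C c) = PowerSeries.X := by
    rw [map_sub, Tc_X, Tc_C]; ring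
  have hdvd : (PowerSeries.X : PowerSeries ℂ) ^ k ∣ Tc c G := by
    rw [h, hg1, map_mul, map_pow, hT]
    exact ⟨W * Tc c g1, by ring⟩
  have hG : (Polynomial.X - Polynomial.C c) ^ k ∣ G := by
    rw [Polynomial.X_sub_C_pow_dvd_iff, Polynomial.X_pow_dvd_iff]
    intro d hd
    rw [PowerSeries.X_pow_dvd_iff] at hdvd
    have := hdvd d hd
    rw [Tc] at this
    simpa [Polynomial.coeff_coe] using this
  obtain ⟨G1, hG1⟩ := hG
  refine regAt_iff.2 ⟨G1, g1, hg1e, ?_⟩
  have hne : pr (Polynomial.X - Polynomial.C c) ≠ 0 := pr_ne_zero (Polynomial.X_sub_C_ne_zero c)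
  have hg1' := pr_ne_zero (ne_zero_of_eval hg1e)
  have e1 : pr G = pr (Polynomial.X - Polynomial.C c) ^ k * pr G1 := by
    rw [hG1]; unfold pr; rw [map_mul, map_pow]
  have e2 : pr g = pr (Polynomial.X - Polynomial.C c) ^ k * pr g1 := by
    conv_lhs => rw [hg1]
    unfold pr; rw [map_mul, map_pow]
  rw [e1, e2, mul_div_mul_left _ _ (pow_ne_zero k hne)]

theorem common_denom (F : ℕ → RatFunc ℂ) (n : ℕ) :
    ∃ (g : ℂ[X]) (f : ℕ → ℂ[X]), g ≠ 0 ∧ ∀ i ≤ n, F i = pr (f i) / pr g := by
  classical
  induction n with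
  | zero =>
    refine ⟨(F 0).denom, fun _ => (F 0).num, RatFunc.denom_ne_zero _, ?_⟩
    intro i hi
    have : i = 0 := by omega
    subst this
    exact (RatFunc.num_div_denom _).symm
  | succ n ih =>
    obtain ⟨g, f, hg, h⟩ := ih
    refine ⟨g * (F (n + 1)).denom, fun i => if i ≤ n then f i * (F (n + 1)).denom
      else (F (n + 1)).num * g, mul_ne_zero hg (RatFunc.denom_ne_zero _), ?_⟩
    intro i hi
    have h1 := pr_ne_zero hg
    have h2 := pr_ne_zero (RatFunc.denom_ne_zero (F (n + 1)))
    by_cases hin : i ≤ n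
    · dsimp only
      rw [if_pos hin, h i hin]
      unfold pr at *
      rw [map_mul, map_mul]
      field_simp
    · have : i = n + 1 := by omega
      subst this
      dsimp only
      rw [if_neg hin]
      conv_lhs => rw [← RatFunc.num_div_denom (F (n + 1))]
      unfold pr at *
      rw [map_mul, map_mul]
      field_simp

/-- **the end of (S2)** -/
theorem s2_end (F : ℕ → RatFunc ℂ) (c : ℂ) (X1 X2 : RR)
    (h00 : MvPowerSeries.coeff 0 X1 = 0)
    (h01 : MvPowerSeries.coeff (Finsupp.single 1 1) X1 ≠ 0)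
    (H : ∀ (K : ℕ) (f : ℕ → ℂ[X]) (g : ℂ[X]), g ≠ 0 → (∀ n ≤ K, F n = pr (f n) / pr g) →
      ∀ e : Fin 2 →₀ ℕ, e 0 ≤ K →
        MvPowerSeries.coeff e (X1 * ∑ n ∈ Finset.range (K + 1),
          Polynomial.aeval (MvPowerSeries.C c + MvPowerSeries.X 1 : RR) (f n) *
            (MvPowerSeries.X 0) ^ n) =
        MvPowerSeries.coeff e (X2 *
          Polynomial.aeval (MvPowerSeries.C c + MvPowerSeries.X 1 : RR) g)) :
    ∃ φ : ℕ → ℂ, φ 0 = 0 ∧ ∀ n, RegAt ((RatFunc.X - RatFunc.C c) * F n -
      ∑ i ∈ Finset.range (n + 1), RatFunc.C (φ i) * F (n - i)) c := by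
  set x : ℕ → PowerSeries ℂ := fun n => PowerSeries.coeff n (Psi X1) with hx
  have hx0 : PowerSeries.constantCoeff (x 0) = 0 := by
    rw [← PowerSeries.coeff_zero_eq_constantCoeff_apply, hx, Psi_coeff]
    rw [show ex 0 0 = 0 by simp [ex]]
    exact h00
  have hx1 : PowerSeries.coeff 1 (x 0) ≠ 0 := by
    rw [hx]
    show PowerSeries.coeff 1 (PowerSeries.coeff 0 (Psi X1)) ≠ 0
    rw [Psi_coeff, show ex 0 1 = Finsupp.single 1 1 by simp [ex]]
    exact h01
  obtain ⟨V, φ, hφ0, hVφ⟩ := weier x hx0 hx1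
  have hxe : PowerSeries.mk x = Psi X1 := by
    ext1 n
    rw [PowerSeries.coeff_mk]
  rw [hxe] at hVφ
  refine ⟨φ, hφ0, fun n => ?_⟩
  obtain ⟨g, f, hg, hf⟩ := common_denom F n
  -- the relation modulo N^(n+1)
  have key : ∀ k ≤ n, PowerSeries.coeff k (Psi X1 * ∑ i ∈ Finset.range (n + 1),
      PowerSeries.C (Tc c (f i)) * PowerSeries.X ^ i) =
      PowerSeries.coeff k (Psi X2 * PowerSeries.C (Tc c g)) := by
    intro k hk
    ext j
    have h1 := H n f g hg hf (ex k j) (by simpa using hk)
    rw [← Psi_coeff, ← Psi_coeff, map_mul Psi, map_mul Psi, Psi_aeval, map_sum Psi] at h1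
    have e0 : ∀ i, Psi (Polynomial.aeval (MvPowerSeries.C c + MvPowerSeries.X 1 : RR) (f i) *
        (MvPowerSeries.X 0) ^ i) = PowerSeries.C (Tc c (f i)) * PowerSeries.X ^ i := by
      intro i
      rw [map_mul Psi, map_pow Psi, Psi_aeval, Psi_X0]
    simp only [e0] at h1
    exact h1
  set G : ℂ[X] := (Polynomial.X - Polynomial.C c) * f n -
    ∑ i ∈ Finset.range (n + 1), Polynomial.C (φ i) * f (n - i) with hG
  have hTG : Tc c G = PowerSeries.coeff n (PowerSeries.mk V * Psi X2) * Tc c g := by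
    have e1 : PowerSeries.coeff n (PowerSeries.mk V * (Psi X1 * ∑ i ∈ Finset.range (n + 1),
        PowerSeries.C (Tc c (f i)) * PowerSeries.X ^ i)) =
        PowerSeries.coeff n (PowerSeries.mk V * (Psi X2 * PowerSeries.C (Tc c g))) := by
      rw [PowerSeries.coeff_mul, PowerSeries.coeff_mul]
      refine Finset.sum_congr rfl fun p hp => ?_
      rw [key p.2 (by have := Finset.HasAntidiagonal.mem_antidiagonal.mp hp; omega)]
    rw [← mul_assoc, hVφ, ← mul_assoc, PowerSeries.coeff_mul_C] at e1
    rw [← e1]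
    set Sf : PowerSeries (PowerSeries ℂ) := ∑ i ∈ Finset.range (n + 1),
      PowerSeries.C (Tc c (f i)) * (PowerSeries.X : PowerSeries (PowerSeries ℂ)) ^ i with hSf
    have e2 : ∀ b ≤ n, PowerSeries.coeff b Sf = Tc c (f b) := by
      intro b hb
      rw [hSf, map_sum, Finset.sum_eq_single b]
      · rw [PowerSeries.coeff_C_mul, PowerSeries.coeff_X_pow, if_pos rfl, mul_one]
      · intro i _ hi
        rw [PowerSeries.coeff_C_mul, PowerSeries.coeff_X_pow, if_neg (fun e => hi e.symm),
          mul_zero]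
      · intro hb'
        exact absurd (Finset.mem_range.mpr (by omega)) hb'
    have e3 : PowerSeries.coeff n ((PowerSeries.C PowerSeries.X -
        PowerSeries.mk fun n => PowerSeries.C (φ n)) * Sf) = PowerSeries.X * Tc c (f n) -
        ∑ k ∈ Finset.range (n + 1), PowerSeries.C (φ k) * Tc c (f (n - k)) := by
      rw [sub_mul, map_sub, PowerSeries.coeff_C_mul, e2 n le_rfl, PowerSeries.coeff_mul,
        Finset.Nat.sum_antidiagonal_eq_sum_range_succ_mk]
      congr 1
      refine Finset.sum_congr rfl fun k hk => ?_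
      rw [PowerSeries.coeff_mk, e2 _ (Nat.sub_le n k)]
    rw [e3, hG, map_sub (Tc c), map_mul (Tc c), map_sub (Tc c), Tc_X, Tc_C, map_sum (Tc c)]
    have e5 : ∀ i, Tc c (Polynomial.C (φ i) * f (n - i)) =
        PowerSeries.C (φ i) * Tc c (f (n - i)) := by
      intro i
      rw [map_mul (Tc c), Tc_C]
    simp only [e5]
    ring
  have hr : (RatFunc.X - RatFunc.C c) * F n -
      ∑ i ∈ Finset.range (n + 1), RatFunc.C (φ i) * F (n - i) = pr G / pr g := by
    have hg' := pr_ne_zero hg
    have eX : (RatFunc.X : RatFunc ℂ) = pr Polynomial.X := (RatFunc.algebraMap_X).symm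
    have eC : ∀ a : ℂ, (RatFunc.C a : RatFunc ℂ) = pr (Polynomial.C a) := fun a =>
      (RatFunc.algebraMap_C a).symm
    have e1 : pr G = (RatFunc.X - RatFunc.C c) * pr (f n) -
        ∑ i ∈ Finset.range (n + 1), RatFunc.C (φ i) * pr (f (n - i)) := by
      rw [eX, eC, hG]
      unfold pr
      rw [map_sub, map_mul, map_sub, map_sum]
      simp only [map_mul]
      rfl
    rw [e1, sub_div, Finset.sum_div, hf n le_rfl, mul_div_assoc]
    congr 1
    refine Finset.sum_congr rfl fun i _ => ?_
    rw [hf _ (Nat.sub_le n i), mul_div_assoc]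
  rw [hr]
  exact regAt_of_Tc hg hTG

end Vale.Agent.P097.H541
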