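import Mathlib
import Vale.Agent.P097.H541.AlgHalf
import Vale.Agent.P097.H123.D3Defs

/-! P097, disc case: the Prop `D3.ALG`. -/

set_option linter.all false

namespace Vale.Agent.P097.H541

open Vale.Agent.P097.Disc

theorem transcendental_ratFuncX : Transcendental ℂ (RatFunc.X : RatFunc ℂ) := by
  rw [← RatFunc.algebraMap_X]
  rw [transcendental_iff]
  intro p hp
  rw [Polynomial.aeval_algebraMap_apply, Polynomial.aeval_X_left_apply] at hp
  exact (map_eq_zero_iff _ (RatFunc.algebraMap_injective ℂ)).mp hp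

theorem alg : D3.ALG := by
  intro a d P Q ha hd hQ hQd hQt hPt hP0 h1 h2
  have h : PQ Q P d := by
    refine ⟨hd, ?_, hQt, hPt, hP0⟩
    have : Q.coeff (d - 1) = 1 := by
      rw [← hQd]; exact hQ
    rw [this]; simp
  exact algHalf (L := RatFunc ℂ) (ξ := RatFunc.X) ha h transcendental_ratFuncX h1 h2

end Vale.Agent.P097.H541
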