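import Vale.Agent.P097.H490.D3.Main
import Vale.Agent.P097.H541.S2End

/-! P097, disc case: the Prop `END` of helper490. -/

namespace Vale.Agent.P097.H541

theorem s2_END : Vale.Agent.P097.H490.D3.END :=
  fun F c X1 X2 h00 h01 H => s2_end F c X1 X2 h00 h01 H

end Vale.Agent.P097.H541
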